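import Mathlib

/-!
# P194, step S (helper5, pool job 276): finitely many nontrivial elements of a residually-`p`
group are separated by one homomorphism to a finite `p`-group
-/

namespace Vale.Agent.Lib.P194.H5

theorem exists_sep (p : ℕ) [Fact p.Prime] (N : Type*) [Group N]
    (hres : ∀ x : N, x ≠ 1 → ∃ (P : Type) (_ : Group P) (_ : Finite P) (f : N →* P),
      IsPGroup p P ∧ f x ≠ 1)
    (D : Finset N) (hD : ∀ d ∈ D, d ≠ 1) :
    ∃ (P : Type) (_ : Group P) (_ : Finite P) (f : N →* P), IsPGroup p P ∧ ∀ d ∈ D, f d ≠ 1 := by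
  classical
  induction D using Finset.induction_on with
  | empty =>
    refine ⟨PUnit, inferInstance, inferInstance, 1, ?_, by simp⟩
    intro g
    exact ⟨0, Subsingleton.elim _ _⟩
  | insert d D hd ih =>
    obtain ⟨P1, _, _, f1, hP1, hf1⟩ := ih (fun x hx => hD x (Finset.mem_insert_of_mem hx))
    obtain ⟨P2, _, _, f2, hP2, hf2⟩ := hres d (hD d (Finset.mem_insert_self d D))
    refine ⟨P1 × P2, inferInstance, inferInstance, f1.prod f2, ?_, ?_⟩
    · rintro ⟨a, b⟩
      obtain ⟨k, hk⟩ := hP1 a
      obtain ⟨l, hl⟩ := hP2 b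
      refine ⟨k + l, ?_⟩
      have ha : a ^ p ^ (k + l) = 1 := by rw [pow_add, pow_mul, hk, one_pow]
      have hb : b ^ p ^ (k + l) = 1 := by rw [pow_add, mul_comm, pow_mul, hl, one_pow]
      rw [Prod.pow_mk, ha, hb]
      rfl
    · intro x hx
      rcases Finset.mem_insert.mp hx with rfl | hx
      · intro h
        exact hf2 (congrArg Prod.snd h)
      · intro h
        exact hf1 x hx (congrArg Prod.fst h)

end Vale.Agent.Lib.P194.H5
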